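import Mathlib

/-!
P352, plan BW: the group part of Wiesbrock's theorem on half-sided modular inclusions, letter-free:
`m t = Δ_M^{it}`, `n t = Δ_N^{it}`, `V c = m t * n (-t)` for `1 + c = e^{-2πt}`. From
`n s * V (e^{2πs}) * n (-s) = V 1` for all `s`: the semigroup law and the covariance under both
modular groups.
-/

open Real

namespace Vale.Agent.P352.BW.H732

/-- `t` with `1 + c = e^{-2πt}` -/
noncomputable def tau (c : ℝ) : ℝ := -(log (1 + c) / (2 * π))

theorem tau_nonpos {c : ℝ} (hc : 0 ≤ c) : tau c ≤ 0 := by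
  unfold tau
  have : 0 ≤ log (1 + c) := log_nonneg (by linarith)
  have : 0 ≤ log (1 + c) / (2 * π) := by positivity
  linarith

theorem tau_zero : tau 0 = 0 := by simp [tau]

theorem exp_tau {c : ℝ} (hc : -1 < c) : exp (-(2 * π * tau c)) = 1 + c := by
  have hπ : (2 * π) ≠ 0 := by positivity
  have : -(2 * π * tau c) = log (1 + c) := by
    unfold tau; field_simp
  rw [this, exp_log (by linarith)]

theorem tau_exp (t : ℝ) : tau (exp (-(2 * π * t)) - 1) = t := by
  have hπ : (2 * π) ≠ 0 := by positivity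
  unfold tau
  rw [show (1 : ℝ) + (exp (-(2 * π * t)) - 1) = exp (-(2 * π * t)) by ring, log_exp]
  field_simp

theorem tau_add {c d : ℝ} (hc : -1 < c) (hd : -1 < d) : tau (c + (1 + c) * d) = tau c + tau d := by
  have h1 : (1 : ℝ) + c ≠ 0 := by linarith
  have h2 : (1 : ℝ) + d ≠ 0 := by linarith
  unfold tau
  rw [show (1 : ℝ) + (c + (1 + c) * d) = (1 + c) * (1 + d) by ring, log_mul h1 h2]
  ring

variable {G : Type*} [Group G] {m n : ℝ → G}

/-- the semigroup -/
noncomputable def V (m n : ℝ → G) (c : ℝ) : G := m (tau c) * n (-(tau c))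

theorem V_zero (hm : ∀ s t, m (s + t) = m s * m t) (hn : ∀ s t, n (s + t) = n s * n t) :
    V m n 0 = 1 := by
  have h1 : m 0 = 1 := by have := hm 0 0; simpa using this
  have h2 : n 0 = 1 := by have := hn 0 0; simpa using this
  simp [V, tau_zero, h1, h2]

theorem one_of (hm : ∀ s t, m (s + t) = m s * m t) : m 0 = 1 := by
  have := hm 0 0; simpa using this

theorem inv_of (hm : ∀ s t, m (s + t) = m s * m t) (t : ℝ) : m (-t) = (m t)⁻¹ := by
  apply eq_inv_of_mul_eq_one_left
  rw [← hm, neg_add_cancel, one_of hm]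

/-- covariance under the small modular group -/
theorem cov_n (hn : ∀ s t, n (s + t) = n s * n t) (hm : ∀ s t, m (s + t) = m s * m t)
    (h : ∀ s, n s * V m n (exp (2 * π * s)) * n (-s) = V m n 1) {c : ℝ} (hc : 0 ≤ c) (s : ℝ) :
    n (-s) * V m n c * n s = V m n (exp (2 * π * s) * c) := by
  rcases hc.eq_or_lt with rfl | hc
  · rw [mul_zero, V_zero hm hn, mul_one, ← hn, neg_add_cancel, one_of hn]
  · have hπ : (2 * π) ≠ 0 := by positivity
    have key : ∀ r, V m n (exp (2 * π * r)) = n (-r) * V m n 1 * n r := by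
      intro r
      rw [← h r, inv_of hn]
      group
    have h1 : c = exp (2 * π * (log c / (2 * π))) := by
      rw [mul_div_cancel₀ _ hπ, exp_log hc]
    set r := log c / (2 * π) with hr
    rw [h1, ← exp_add, ← mul_add, key, key, add_comm s r, hn, neg_add_rev, hn]
    group

/-- the semigroup law -/
theorem V_add (hn : ∀ s t, n (s + t) = n s * n t) (hm : ∀ s t, m (s + t) = m s * m t)
    (h : ∀ s, n s * V m n (exp (2 * π * s)) * n (-s) = V m n 1) {c d : ℝ} (hc : 0 ≤ c)
    (hd : 0 ≤ d) : V m n (c + d) = V m n c * V m n d := by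
  have hc1 : (0 : ℝ) < 1 + c := by linarith
  have hd' : 0 ≤ d / (1 + c) := by positivity
  have h1 : c + d = c + (1 + c) * (d / (1 + c)) := by field_simp
  have h2 := cov_n hn hm h hd' (-(tau c))
  have h3 : exp (2 * π * -(tau c)) = 1 + c := by
    rw [← exp_tau (c := c) (by linarith)]; ring_nf
  rw [h3, neg_neg, mul_div_cancel₀ _ hc1.ne'] at h2
  rw [h1, V, tau_add (by linarith) (by linarith), hm, ← h2]
  unfold V
  rw [neg_add_rev, hn, inv_of hn (tau c), inv_of hn (tau (d / (1 + c)))]
  group

theorem V_comm (hn : ∀ s t, n (s + t) = n s * n t) (hm : ∀ s t, m (s + t) = m s * m t)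
    (h : ∀ s, n s * V m n (exp (2 * π * s)) * n (-s) = V m n 1) {c d : ℝ} (hc : 0 ≤ c)
    (hd : 0 ≤ d) : V m n c * V m n d = V m n d * V m n c := by
  rw [← V_add hn hm h hc hd, ← V_add hn hm h hd hc, add_comm]

/-- covariance under the big modular group -/
theorem cov_m (hn : ∀ s t, n (s + t) = n s * n t) (hm : ∀ s t, m (s + t) = m s * m t)
    (h : ∀ s, n s * V m n (exp (2 * π * s)) * n (-s) = V m n 1) {c : ℝ} (hc : 0 ≤ c) (s : ℝ) :
    m (-s) * V m n c * m s = V m n (exp (2 * π * s) * c) := by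
  have pos : ∀ {c s : ℝ}, 0 ≤ c → 0 ≤ s → m (-s) * V m n c * m s = V m n (exp (2 * π * s) * c) := by
    intro c s hc hs
    have hs1 : 0 ≤ exp (-(2 * π * -s)) - 1 := by
      have : (1 : ℝ) ≤ exp (-(2 * π * -s)) := by
        apply one_le_exp
        have : 0 ≤ 2 * π * s := by positivity
        linarith
      linarith
    have h1 : V m n (exp (-(2 * π * -s)) - 1) = m (-s) * n s := by
      rw [V, tau_exp, neg_neg]
    have h2 : m (-s) = V m n (exp (-(2 * π * -s)) - 1) * n (-s) := by
      rw [h1, inv_of hn]; group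
    have h3 : m s = n s * (V m n (exp (-(2 * π * -s)) - 1))⁻¹ := by
      have := inv_of hm (-s)
      rw [neg_neg] at this
      rw [this, h2, inv_of hn]; group
    have hc' : 0 ≤ exp (2 * π * s) * c := by positivity
    calc m (-s) * V m n c * m s
        = V m n (exp (-(2 * π * -s)) - 1) * (n (-s) * V m n c * n s) *
          (V m n (exp (-(2 * π * -s)) - 1))⁻¹ := by rw [h2, h3]; group
      _ = V m n (exp (2 * π * s) * c) := by
          rw [cov_n hn hm h hc, V_comm hn hm h hs1 hc', mul_inv_cancel_right]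
  rcases le_total 0 s with hs | hs
  · exact pos hc hs
  · have h1 := pos (c := exp (2 * π * s) * c) (s := -s) (by positivity) (by linarith)
    rw [← mul_assoc, ← exp_add, show 2 * π * -s + 2 * π * s = 0 by ring, exp_zero, one_mul,
      neg_neg] at h1
    rw [← h1, inv_of hm]
    group

end Vale.Agent.P352.BW.H732
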